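import Vale.Agent.P116.L.Main
import Vale.Agent.P116.L.Br

/-! P116 R/Main: Schramm's limit argument. -/

open Metric Set Filter Function Topology Complex

noncomputable section

namespace Vale.Agent.P116

theorem schramm {F V : Set ℂ} {φ : ℂ → ℂ} (h : Sq F V φ) (hc : IsPreconnected (φ '' F)ᶜ) :
    ∃ g X, Glob (φ '' F) g X ∧ Circ X := by
  obtain ⟨G, h1, h2, h3, h4, h5⟩ := L.schramm L.koebeFin h.op h.hol h.inj h.cpt h.sub h.cmp hc
  exact ⟨G, (G '' (φ '' F)ᶜ)ᶜ, ⟨h1, h2, (compl_compl _).symm, h3⟩, h4, h5⟩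

end Vale.Agent.P116
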